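import Mathlib
import Vale.Agent.P129.WCG

/- A separable infinite-dimensional quotient for every Banach space generated by fewer weakly
Lindelöf Σ sets than the least cardinality of a non-meagre set of reals. -/

open TopologicalSpace

theorem Vale.Agent.Results.P129.SepQuotientNonMeagre.result
    {𝕜 : Type*} [RCLike 𝕜] {X : Type*} [NormedAddCommGroup X] [NormedSpace 𝕜 X] [CompleteSpace X]
    (hinf : ¬ FiniteDimensional 𝕜 X)
    {ι : Type*} (K : ι → Set X) (N : ι → ℕ → Set X)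
    (hK : ∀ i, ∀ x ∈ K i, ∃ C : Set (WeakSpace 𝕜 X), IsCompact C ∧ toWeakSpace 𝕜 X x ∈ C ∧
      ∀ O, IsOpen O → C ⊆ O → ∃ n, x ∈ N i n ∧ toWeakSpace 𝕜 X '' N i n ⊆ O)
    (hspan : Dense (Submodule.span 𝕜 (⋃ i, K i) : Set X))
    (hι : ∀ φ : ι → ℝ, IsMeagre (Set.range φ)) :
    ∃ M : Submodule 𝕜 X, IsClosed (M : Set X) ∧ SeparableSpace (X ⧸ M) ∧
      ¬ FiniteDimensional 𝕜 (X ⧸ M) :=
  Vale.Agent.P129.separable_quotient_of_lindelofSigma hinf K N hK hspan hι
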